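import Mathlib

set_option autoImplicit false

/-! The letter budget of the walk from `θ` to `λ`. -/

namespace Vale.Agent.P181.Z.H412

open Filter

lemma ev_pow {s t : ℝ} (hst : s < t) (c : ℝ) :
    ∀ᶠ a : ℕ in atTop, c * (a : ℝ) ^ s ≤ (a : ℝ) ^ t := by
  have h1 : Tendsto (fun a : ℕ => (a : ℝ) ^ (t - s)) atTop atTop :=
    (tendsto_rpow_atTop (sub_pos.2 hst)).comp tendsto_natCast_atTop_atTop
  filter_upwards [h1.eventually_ge_atTop c, eventually_ge_atTop 1] with a ha ha1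
  have h2 : (0 : ℝ) < (a : ℝ) := by exact_mod_cast ha1
  calc c * (a : ℝ) ^ s ≤ (a : ℝ) ^ (t - s) * (a : ℝ) ^ s :=
        mul_le_mul_of_nonneg_right ha (Real.rpow_nonneg h2.le _)
    _ = (a : ℝ) ^ t := by rw [← Real.rpow_add h2]; congr 1; ring

/-- **The letter budget.** -/
theorem budget (n Bmax : ℕ) (K g : ℝ) (hg : 0 < g) :
    ∃ a0 : ℕ, ∀ a : ℕ, a0 ≤ a → ∀ b N : ℕ, (a : ℝ) ^ (1 + g) ≤ b →
      (N : ℝ) ≤ (a : ℝ) ^ (1 + g) / 8 + 1 →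
      ∀ x : Fin (n + 2) → ℝ, (∀ i, 0 < x i) → Monotone x →
      2 ≤ x 1 * (a : ℝ) ^ (1 / 2 + g / 16) →
      ∀ B : ℕ → ℕ, (∀ i, i < n + 2 → B i ≤ Bmax) →
      ∀ k ν : Fin (n + 2) → ℕ, k 0 = 0 →
      (∀ i, (k i : ℝ) ≤ K * ((a : ℝ) ^ (1 / 2 + g / 8) / x i + a + 3)) →
      (ν 0 : ℝ) ≤ (a : ℝ) ^ (2 + g / 2) →
      ∃ Bν : ℕ, N + (a + 4) + Bν + ∑ i, k i * B i = b ∧
        (n + 3) * ν 0 + 4 * (n + 3) ^ 2 * a ≤ (a - 1) * Bν := by
  set L : ℝ := max K 0 with hL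
  have hL0 : 0 ≤ L := le_max_right _ _
  set M : ℝ := (n + 2 : ℝ) * (Bmax : ℝ) * L with hM
  have hM0 : 0 ≤ M := by positivity
  have e1 := ev_pow (s := 1 + 3 * g / 16) (t := 1 + g) (by linarith) (8 * M * 5)
  have e2 := ev_pow (s := 1) (t := 1 + g) (by linarith) 48
  have e3 := ev_pow (s := 2 + g / 2) (t := 2 + g) (by linarith) (16 * (n + 3 : ℝ))
  have e4 := ev_pow (s := 1) (t := 2 + g) (by linarith) (64 * (n + 3 : ℝ) ^ 2)
  obtain ⟨a0, h0⟩ := eventually_atTop.1 (e1.and (e2.and (e3.and (e4.and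
    (eventually_ge_atTop 2)))))
  refine ⟨a0, fun a ha b N hb hN x hx hmono hx1 B hB k ν hk0 hk hν => ?_⟩
  obtain ⟨f1, f2, f3, f4, ha2⟩ := h0 a ha
  have hA : (2 : ℝ) ≤ (a : ℝ) := by exact_mod_cast ha2
  have hA0 : (0 : ℝ) < (a : ℝ) := by linarith
  rw [Real.rpow_one] at f2 f4
  -- the Pieri boxes
  have hpow : (a : ℝ) ≤ (a : ℝ) ^ (1 + 3 * g / 16) := by
    calc (a : ℝ) = (a : ℝ) ^ (1 : ℝ) := (Real.rpow_one _).symm
      _ ≤ _ := Real.rpow_le_rpow_of_exponent_le (by linarith) (by linarith)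
  have hki : ∀ i : Fin (n + 2), (k i : ℝ) ≤ L * (5 * (a : ℝ) ^ (1 + 3 * g / 16)) := by
    intro i
    by_cases hi : i = 0
    · rw [hi, hk0, Nat.cast_zero]
      positivity
    · have h1 : x 1 ≤ x i := by
        apply hmono
        rw [Fin.le_def]
        have h2 : (i : ℕ) ≠ 0 := fun h => hi (Fin.ext h)
        have h3 : ((1 : Fin (n + 2)) : ℕ) = 1 := rfl
        rw [h3]
        omega
      have h2 : (a : ℝ) ^ (1 / 2 + g / 8) / x i ≤ (a : ℝ) ^ (1 + 3 * g / 16) := by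
        rw [div_le_iff₀ (hx i)]
        have h3 : (1 : ℝ) ≤ x i * (a : ℝ) ^ (1 / 2 + g / 16) := by
          have h4 : x 1 * (a : ℝ) ^ (1 / 2 + g / 16) ≤ x i * (a : ℝ) ^ (1 / 2 + g / 16) :=
            mul_le_mul_of_nonneg_right h1 (Real.rpow_nonneg hA0.le _)
          linarith
        calc (a : ℝ) ^ (1 / 2 + g / 8) = (a : ℝ) ^ (1 / 2 + g / 8) * 1 := (mul_one _).symm
          _ ≤ (a : ℝ) ^ (1 / 2 + g / 8) * (x i * (a : ℝ) ^ (1 / 2 + g / 16)) :=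
            mul_le_mul_of_nonneg_left h3 (Real.rpow_nonneg hA0.le _)
          _ = ((a : ℝ) ^ (1 / 2 + g / 8) * (a : ℝ) ^ (1 / 2 + g / 16)) * x i := by ring
          _ = (a : ℝ) ^ (1 + 3 * g / 16) * x i := by
            rw [← Real.rpow_add hA0]
            congr 2
            ring
      have h5 : (a : ℝ) ^ (1 / 2 + g / 8) / x i + a + 3 ≤ 5 * (a : ℝ) ^ (1 + 3 * g / 16) := by
        linarith
      have h6 : (0 : ℝ) ≤ (a : ℝ) ^ (1 / 2 + g / 8) / x i + a + 3 := by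
        have := hx i
        positivity
      calc (k i : ℝ) ≤ K * ((a : ℝ) ^ (1 / 2 + g / 8) / x i + a + 3) := hk i
        _ ≤ L * ((a : ℝ) ^ (1 / 2 + g / 8) / x i + a + 3) :=
          mul_le_mul_of_nonneg_right (le_max_left _ _) h6
        _ ≤ L * (5 * (a : ℝ) ^ (1 + 3 * g / 16)) := mul_le_mul_of_nonneg_left h5 hL0
  have hsum : ((∑ i, k i * B i : ℕ) : ℝ) ≤ (a : ℝ) ^ (1 + g) / 8 := by
    push_cast
    calc ∑ i : Fin (n + 2), (k i : ℝ) * (B i : ℝ)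
        ≤ ∑ _i : Fin (n + 2), L * (5 * (a : ℝ) ^ (1 + 3 * g / 16)) * (Bmax : ℝ) := by
          apply Finset.sum_le_sum
          intro i _
          have h1 : ((B i : ℕ) : ℝ) ≤ (Bmax : ℝ) := by exact_mod_cast hB i i.isLt
          exact mul_le_mul (hki i) h1 (Nat.cast_nonneg _) (by positivity)
      _ = M * 5 * (a : ℝ) ^ (1 + 3 * g / 16) := by
          rw [Finset.sum_const, Finset.card_univ, Fintype.card_fin, nsmul_eq_mul, hM]
          push_cast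
          ring
      _ ≤ (a : ℝ) ^ (1 + g) / 8 := by
          rw [le_div_iff₀ (by norm_num)]
          calc M * 5 * (a : ℝ) ^ (1 + 3 * g / 16) * 8
              = 8 * M * 5 * (a : ℝ) ^ (1 + 3 * g / 16) := by ring
            _ ≤ _ := f1
  have htot : ((N + (a + 4) + ∑ i, k i * B i : ℕ) : ℝ) ≤ (a : ℝ) ^ (1 + g) / 2 := by
    push_cast at hsum ⊢
    linarith
  have hle : N + (a + 4) + ∑ i, k i * B i ≤ b := by
    have h1 : ((N + (a + 4) + ∑ i, k i * B i : ℕ) : ℝ) ≤ (b : ℝ) := by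
      have h2 : (0 : ℝ) ≤ (a : ℝ) ^ (1 + g) := Real.rpow_nonneg hA0.le _
      linarith
    exact_mod_cast h1
  refine ⟨b - (N + (a + 4) + ∑ i, k i * B i), by omega, ?_⟩
  have hBν : (a : ℝ) ^ (1 + g) / 2 ≤ ((b - (N + (a + 4) + ∑ i, k i * B i) : ℕ) : ℝ) := by
    rw [Nat.cast_sub hle]
    linarith
  have hfin : (((n + 3) * ν 0 + 4 * (n + 3) ^ 2 * a : ℕ) : ℝ) ≤
      (((a - 1) * (b - (N + (a + 4) + ∑ i, k i * B i)) : ℕ) : ℝ) := by
    rw [Nat.cast_mul (a - 1), Nat.cast_sub (by omega : 1 ≤ a)]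
    push_cast only [Nat.cast_one]
    have h1 : ((a : ℝ) - 1) * ((a : ℝ) ^ (1 + g) / 2) ≤
        ((a : ℝ) - 1) * ((b - (N + (a + 4) + ∑ i, k i * B i) : ℕ) : ℝ) :=
      mul_le_mul_of_nonneg_left hBν (by linarith)
    have h2 : (a : ℝ) * (a : ℝ) ^ (1 + g) = (a : ℝ) ^ (2 + g) := by
      have h3 : (a : ℝ) ^ (2 + g) = (a : ℝ) ^ ((1 : ℝ) + (1 + g)) := by congr 1; ring
      rw [h3, Real.rpow_add hA0 1 (1 + g), Real.rpow_one]
    have h4 : (a : ℝ) ^ (2 + g) / 4 ≤ ((a : ℝ) - 1) * ((a : ℝ) ^ (1 + g) / 2) := by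
      have h5 : (0 : ℝ) ≤ (a : ℝ) ^ (1 + g) := Real.rpow_nonneg hA0.le _
      rw [← h2]
      nlinarith
    have h6 : ((n : ℝ) + 3) * (ν 0 : ℝ) ≤ (a : ℝ) ^ (2 + g) / 16 := by
      have h7 : ((n : ℝ) + 3) * (ν 0 : ℝ) ≤ ((n : ℝ) + 3) * (a : ℝ) ^ (2 + g / 2) :=
        mul_le_mul_of_nonneg_left hν (by positivity)
      linarith
    have h8 : 4 * ((n : ℝ) + 3) ^ 2 * (a : ℝ) ≤ (a : ℝ) ^ (2 + g) / 16 := by
      linarith
    have h9 : (0 : ℝ) ≤ (a : ℝ) ^ (2 + g) := Real.rpow_nonneg hA0.le _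
    push_cast
    linarith
  exact_mod_cast hfin

end Vale.Agent.P181.Z.H412
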