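import Mathlib

set_option autoImplicit false

/-!
The equalizer `T_s`.

`R` is a commutative `ℂ`-algebra with derivations `E i j` satisfying the relations of `gl_n`.
For `f` killed by all raising operators, all of whose rows `j ∈ T = [i₀, s)` are equal, with gap
`g` to the row `s`, and for a tuple `p` transforming like the standard basis of the block
`T ∪ {s}`, the element `Ts f p` is again killed by all raising operators and has equal rows in
`T ∪ {s}`.
-/

namespace Vale.Agent.P181.H412.Ts

open MvPolynomial Finset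

variable {n : ℕ} {R : Type*} [CommRing R] [Algebra ℂ R]

/-! ### Coefficientwise derivations -/

/-- A derivation applied to the coefficients. -/
noncomputable def cw (D : Derivation ℂ R R) (G : MvPolynomial (Fin n) R) :
    MvPolynomial (Fin n) R :=
  ∑ m ∈ G.support, monomial m (D (coeff m G))

lemma coeff_cw (D : Derivation ℂ R R) (G : MvPolynomial (Fin n) R) (m : Fin n →₀ ℕ) :
    coeff m (cw D G) = D (coeff m G) := by
  classical
  unfold cw
  rw [coeff_sum]
  simp only [coeff_monomial]
  rw [Finset.sum_ite_eq']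
  split_ifs with h
  · rfl
  · rw [notMem_support_iff] at h
    rw [h, map_zero]

lemma cw_add (D : Derivation ℂ R R) (G H : MvPolynomial (Fin n) R) :
    cw D (G + H) = cw D G + cw D H := by
  ext m
  simp [coeff_cw]

lemma cw_zero (D : Derivation ℂ R R) : cw D (0 : MvPolynomial (Fin n) R) = 0 := by
  ext m
  simp [coeff_cw]

lemma cw_sum {ι : Type*} (D : Derivation ℂ R R) (S : Finset ι) (G : ι → MvPolynomial (Fin n) R) :
    cw D (∑ i ∈ S, G i) = ∑ i ∈ S, cw D (G i) := by
  ext m
  simp [coeff_cw, coeff_sum]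

lemma cw_smul (D : Derivation ℂ R R) (c : ℂ) (G : MvPolynomial (Fin n) R) :
    cw D (c • G) = c • cw D G := by
  ext m
  simp [coeff_cw]

lemma cw_C (D : Derivation ℂ R R) (x : R) :
    cw D (C x : MvPolynomial (Fin n) R) = C (D x) := by
  classical
  ext m
  rw [coeff_cw, coeff_C, coeff_C]
  split_ifs
  · rfl
  · exact map_zero D

lemma C_csmul (c : ℂ) (x : R) : (C (c • x) : MvPolynomial (Fin n) R) = c • C x := by
  classical
  ext m
  rw [coeff_smul, coeff_C, coeff_C]
  split_ifs
  · rfl
  · rw [smul_zero]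

lemma cw_mul (D : Derivation ℂ R R) (G H : MvPolynomial (Fin n) R) :
    cw D (G * H) = G * cw D H + cw D G * H := by
  ext m
  rw [coeff_cw, coeff_add, coeff_mul, coeff_mul, coeff_mul, map_sum, ← Finset.sum_add_distrib]
  apply Finset.sum_congr rfl
  intro u _
  rw [coeff_cw, coeff_cw, Derivation.leibniz, smul_eq_mul, smul_eq_mul]
  ring

lemma cw_X (D : Derivation ℂ R R) (j : Fin n) : cw D (X j : MvPolynomial (Fin n) R) = 0 := by
  classical
  ext m
  rw [coeff_cw, coeff_X, coeff_zero]
  split_ifs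
  · exact Derivation.map_one_eq_zero D
  · exact map_zero D

lemma cw_X_mul (D : Derivation ℂ R R) (j : Fin n) (G : MvPolynomial (Fin n) R) :
    cw D (X j * G) = X j * cw D G := by
  rw [cw_mul, cw_X, zero_mul, add_zero]

lemma cw_X_pow_mul (D : Derivation ℂ R R) (j : Fin n) (r : ℕ) (G : MvPolynomial (Fin n) R) :
    cw D (X j ^ r * G) = X j ^ r * cw D G := by
  induction r with
  | zero => simp
  | succ r ih => rw [pow_succ', mul_assoc, cw_X_mul, ih, ← mul_assoc]

lemma pderiv_cw (D : Derivation ℂ R R) (k : Fin n) (G : MvPolynomial (Fin n) R) :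
    pderiv k (cw D G) = cw D (pderiv k G) := by
  induction G using MvPolynomial.induction_on with
  | C a => rw [cw_C, pderiv_C, pderiv_C, cw_zero]
  | add p q hp hq => rw [cw_add, map_add, map_add, cw_add, hp, hq]
  | mul_X p i hp =>
    rw [mul_comm p, cw_X_mul, pderiv_mul, pderiv_mul, cw_add, cw_X_mul, hp]
    congr 1
    rw [pderiv_X]
    by_cases h : k = i
    · subst h
      simp
    · simp [h, cw_zero]

/-- Chain rule. -/
lemma deriv_eval (D : Derivation ℂ R R) (p : Fin n → R) (G : MvPolynomial (Fin n) R) :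
    D (eval p G) = eval p (cw D G) + ∑ j, eval p (pderiv j G) * D (p j) := by
  induction G using MvPolynomial.induction_on with
  | C a => simp [cw_C]
  | add G H hG hH =>
    rw [map_add, map_add, hG, hH, cw_add, map_add]
    simp only [map_add, add_mul, Finset.sum_add_distrib]
    ring
  | mul_X G i hG =>
    rw [map_mul, Derivation.leibniz, hG, cw_mul, cw_X, mul_zero, zero_add, map_mul, eval_X]
    have h1 : ∀ j, eval p (pderiv j (G * X i)) * D (p j) =
        p i * (eval p (pderiv j G) * D (p j)) + eval p G * (if i = j then D (p j) else 0) := by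
      intro j
      rw [pderiv_mul, map_add, map_mul, map_mul, eval_X, pderiv_X]
      by_cases h : i = j
      · subst h
        simp
        ring
      · rw [Pi.single_apply, if_neg h]
        simp [h]
        try ring
    rw [Finset.sum_congr rfl (fun j _ => h1 j), Finset.sum_add_distrib, ← Finset.mul_sum,
      ← Finset.mul_sum, Finset.sum_ite_eq, if_pos (mem_univ _), smul_eq_mul, smul_eq_mul]
    ring

omit [Algebra ℂ R] in
lemma pderiv_X_mul' (k j : Fin n) (G : MvPolynomial (Fin n) R) :
    pderiv k (X j * G) = (if k = j then G else 0) + X j * pderiv k G := by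
  rw [pderiv_mul, pderiv_X]
  by_cases h : k = j
  · subst h
    simp
  · rw [Pi.single_apply, if_neg (fun h' => h h'.symm)]
    simp [h]

/-! ### The `gl_n` relations -/

/-- Derivations satisfying the relations of `gl_n`. -/
def Rel (E : Fin n → Fin n → Derivation ℂ R R) : Prop :=
  ∀ i j k l, ∀ x : R, E i j (E k l x) = E k l (E i j x) + (if j = k then E i l x else 0) -
    (if l = i then E k j x else 0)

variable {E : Fin n → Fin n → Derivation ℂ R R}

lemma cw_rel (hE : Rel E) (i j k l : Fin n) (G : MvPolynomial (Fin n) R) :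
    cw (E i j) (cw (E k l) G) = cw (E k l) (cw (E i j) G) +
      (if j = k then cw (E i l) G else 0) - (if l = i then cw (E k j) G else 0) := by
  ext m
  rw [coeff_cw, coeff_cw, hE, coeff_sub, coeff_add, coeff_cw, coeff_cw]
  split_ifs <;> simp [coeff_cw]

/-- `∇ = ∑_{j ∈ T} X_j E_{sj}`. -/
noncomputable def nab (E : Fin n → Fin n → Derivation ℂ R R) (T : Finset (Fin n)) (s : Fin n)
    (G : MvPolynomial (Fin n) R) : MvPolynomial (Fin n) R :=
  ∑ j ∈ T, X j * cw (E s j) G

/-- `∇^m f`. -/
noncomputable def Gm (E : Fin n → Fin n → Derivation ℂ R R) (T : Finset (Fin n)) (s : Fin n)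
    (f : R) (m : ℕ) : MvPolynomial (Fin n) R :=
  (nab E T s)^[m] (C f)

lemma Gm_zero (T : Finset (Fin n)) (s : Fin n) (f : R) : Gm E T s f 0 = C f := rfl

lemma Gm_succ (T : Finset (Fin n)) (s : Fin n) (f : R) (m : ℕ) :
    Gm E T s f (m + 1) = nab E T s (Gm E T s f m) := by
  unfold Gm
  rw [Function.iterate_succ_apply']

lemma nab_X_mul (T : Finset (Fin n)) (s i : Fin n) (G : MvPolynomial (Fin n) R) :
    nab E T s (X i * G) = X i * nab E T s G := by
  unfold nab
  rw [Finset.mul_sum]
  apply Finset.sum_congr rfl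
  intro j _
  rw [cw_X_mul]
  ring

lemma nab_smul (T : Finset (Fin n)) (s : Fin n) (c : ℂ) (G : MvPolynomial (Fin n) R) :
    nab E T s (c • G) = c • nab E T s G := by
  unfold nab
  rw [Finset.smul_sum]
  apply Finset.sum_congr rfl
  intro j _
  rw [cw_smul, mul_smul_comm]

lemma nab_zero (T : Finset (Fin n)) (s : Fin n) :
    nab E T s (0 : MvPolynomial (Fin n) R) = 0 := by
  unfold nab
  simp [cw_zero]

lemma nab_add (T : Finset (Fin n)) (s : Fin n) (G H : MvPolynomial (Fin n) R) :
    nab E T s (G + H) = nab E T s G + nab E T s H := by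
  unfold nab
  rw [← Finset.sum_add_distrib]
  apply Finset.sum_congr rfl
  intro j _
  rw [cw_add, mul_add]

/-- General commutation of a coefficientwise operator with `∇`. -/
lemma cw_nab (hE : Rel E) {T : Finset (Fin n)} {s : Fin n} (i k : Fin n)
    (G : MvPolynomial (Fin n) R) :
    cw (E i k) (nab E T s G) = nab E T s (cw (E i k) G) +
      ∑ j ∈ T, X j * ((if k = s then cw (E i j) G else 0) -
        (if j = i then cw (E s k) G else 0)) := by
  unfold nab
  rw [cw_sum, ← Finset.sum_add_distrib]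
  apply Finset.sum_congr rfl
  intro j _
  rw [cw_X_mul, cw_rel hE]
  ring

lemma cw_nab_of_ne (hE : Rel E) {T : Finset (Fin n)} {s : Fin n} {i k : Fin n} (hk : k ≠ s)
    (hi : i ∉ T) (G : MvPolynomial (Fin n) R) :
    cw (E i k) (nab E T s G) = nab E T s (cw (E i k) G) := by
  rw [cw_nab hE, Finset.sum_eq_zero, add_zero]
  intro j hj
  have hji : j ≠ i := fun h => hi (h ▸ hj)
  rw [if_neg hk, if_neg hji, sub_zero, mul_zero]

/-- An operator commuting with `∇` and killing `f` kills all `∇^m f`. -/
lemma kill_Gm {T : Finset (Fin n)} {s : Fin n} {f : R} (D : Derivation ℂ R R)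
    (hD : ∀ G : MvPolynomial (Fin n) R, cw D (nab E T s G) = nab E T s (cw D G))
    (hf : D f = 0) (m : ℕ) : cw D (Gm E T s f m) = 0 := by
  induction m with
  | zero => rw [Gm_zero, cw_C, hf, C_0]
  | succ m ih => rw [Gm_succ, hD, ih, nab_zero]

lemma pderiv_nab {T : Finset (Fin n)} {s : Fin n} (k : Fin n) (G : MvPolynomial (Fin n) R) :
    pderiv k (nab E T s G) = nab E T s (pderiv k G) + (if k ∈ T then cw (E s k) G else 0) := by
  unfold nab
  rw [map_sum]
  have h1 : ∀ j ∈ T, pderiv k (X j * cw (E s j) G) =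
      X j * cw (E s j) (pderiv k G) + (if k = j then cw (E s j) G else 0) := by
    intro j _
    rw [pderiv_X_mul', pderiv_cw]
    ring
  rw [Finset.sum_congr rfl h1, Finset.sum_add_distrib, Finset.sum_ite_eq]

/-- `∇^m f` only involves `X_j`, `j ∈ T`. -/
lemma pderiv_Gm {T : Finset (Fin n)} {s : Fin n} {f : R} {k : Fin n} (hk : k ∉ T) (m : ℕ) :
    pderiv k (Gm E T s f m) = 0 := by
  induction m with
  | zero => rw [Gm_zero, pderiv_C]
  | succ m ih => rw [Gm_succ, pderiv_nab, ih, nab_zero, if_neg hk, add_zero]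

/-! ### The element -/

/-- `F = ∑_{m ≤ g} (-1)^m/m! X_s^{g-m} ∇^m f`. -/
noncomputable def FF (E : Fin n → Fin n → Derivation ℂ R R) (T : Finset (Fin n)) (s : Fin n)
    (g : ℕ) (f : R) : MvPolynomial (Fin n) R :=
  ∑ m ∈ range (g + 1), ((-1 : ℂ) ^ m / (m.factorial : ℂ)) • (X s ^ (g - m) * Gm E T s f m)

/-- The equalizer. -/
noncomputable def Ts (E : Fin n → Fin n → Derivation ℂ R R) (T : Finset (Fin n)) (s : Fin n)
    (g : ℕ) (f : R) (p : Fin n → R) : R :=
  eval p (FF E T s g f)

/-- `f` is a highest weight vector whose rows in `T` are equal, with gap `g` to the row `s`. -/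
structure Hw (E : Fin n → Fin n → Derivation ℂ R R) (T : Finset (Fin n)) (s : Fin n)
    (g : ℕ) (th : Fin n → ℂ) (f : R) : Prop where
  up : ∀ i j, i < j → E i j f = 0
  eq : ∀ i ∈ T, ∀ j ∈ T, i ≠ j → E i j f = 0
  wt : ∀ i, E i i f = th i • f
  gap : ∀ i ∈ T, th i - th s = g

/-- The tuple `p` transforms like the standard basis of the block `B`. -/
structure Tup (E : Fin n → Fin n → Derivation ℂ R R) (B : Finset (Fin n)) (nu : Fin n → ℂ)
    (p : Fin n → R) : Prop where
  out : ∀ j, j ∉ B → p j = 0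
  up : ∀ i k, i < k → ∀ j ∈ B, E i k (p j) = if k = j then p i else 0
  wt : ∀ k, ∀ j ∈ B, E k k (p j) = (nu k + if k = j then 1 else 0) • p j

/-- The diagonal part of the commutator of `E i s` and `∇`. -/
noncomputable def HH (E : Fin n → Fin n → Derivation ℂ R R) (T : Finset (Fin n)) (s i : Fin n)
    (G : MvPolynomial (Fin n) R) : MvPolynomial (Fin n) R :=
  ∑ j ∈ T, X j * cw (E i j) G - X i * cw (E s s) G

lemma HH_nab (hE : Rel E) {T : Finset (Fin n)} {s i : Fin n} (hi : i ∈ T) (hs : s ∉ T)
    (G : MvPolynomial (Fin n) R) :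
    HH E T s i (nab E T s G) = nab E T s (HH E T s i G) - 2 * X i * nab E T s G := by
  have hsi : i ≠ s := fun h => hs (h ▸ hi)
  have h1 : ∀ j ∈ T, cw (E i j) (nab E T s G) =
      nab E T s (cw (E i j) G) - X i * cw (E s j) G := by
    intro j hj
    rw [cw_nab hE]
    have hjs : j ≠ s := fun h => hs (h ▸ hj)
    simp only [if_neg hjs, zero_sub, mul_neg, Finset.sum_neg_distrib, mul_ite, mul_zero]
    rw [Finset.sum_ite_eq' T i, if_pos hi, ← sub_eq_add_neg]
  have h2 : cw (E s s) (nab E T s G) = nab E T s (cw (E s s) G) + nab E T s G := by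
    rw [cw_nab hE]
    congr 1
    unfold nab
    apply Finset.sum_congr rfl
    intro j hj
    have hjs : j ≠ s := fun h => hs (h ▸ hj)
    rw [if_pos rfl, if_neg hjs, sub_zero]
  unfold HH
  rw [h2, Finset.sum_congr rfl (fun j hj => by rw [h1 j hj])]
  have h3 : nab E T s (∑ j ∈ T, X j * cw (E i j) G - X i * cw (E s s) G) =
      ∑ j ∈ T, X j * nab E T s (cw (E i j) G) - X i * nab E T s (cw (E s s) G) := by
    rw [sub_eq_add_neg, nab_add]
    have h4 : nab E T s (∑ j ∈ T, X j * cw (E i j) G) =
        ∑ j ∈ T, X j * nab E T s (cw (E i j) G) := by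
      have : ∀ S : Finset (Fin n), nab E T s (∑ j ∈ S, X j * cw (E i j) G) =
          ∑ j ∈ S, X j * nab E T s (cw (E i j) G) := by
        intro S
        classical
        induction S using Finset.induction_on with
        | empty => simp [nab_zero]
        | insert a S ha ih => rw [Finset.sum_insert ha, Finset.sum_insert ha, nab_add, ih,
            nab_X_mul]
      exact this T
    have h5 : nab E T s (-(X i * cw (E s s) G)) = -(X i * nab E T s (cw (E s s) G)) := by
      have h6 : -(X i * cw (E s s) G) = (-1 : ℂ) • (X i * cw (E s s) G) := by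
        rw [neg_one_smul]
      rw [h6, nab_smul, nab_X_mul, neg_one_smul]
    rw [h4, h5, ← sub_eq_add_neg]
  rw [h3]
  have h7 : ∑ j ∈ T, X j * (nab E T s (cw (E i j) G) - X i * cw (E s j) G) =
      ∑ j ∈ T, X j * nab E T s (cw (E i j) G) - X i * nab E T s G := by
    have h8 : X i * nab E T s G = ∑ j ∈ T, X j * (X i * cw (E s j) G) := by
      unfold nab
      rw [Finset.mul_sum]
      apply Finset.sum_congr rfl
      intro j _
      ring
    rw [h8, ← Finset.sum_sub_distrib]
    apply Finset.sum_congr rfl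
    intro j _
    ring
  rw [h7]
  ring

/-- `Ê_{is} = E_{is} + X_i ∂_s`; its value on `∇^m f`. -/
lemma Eis_Gm (hE : Rel E) {T : Finset (Fin n)} {s i : Fin n} (hi : i ∈ T) (hs : s ∉ T)
    {g : ℕ} {th : Fin n → ℂ} {f : R} (hf : Hw E T s g th f) (his : i < s) (m : ℕ) :
    cw (E i s) (Gm E T s f (m + 1)) = (((m : ℂ) + 1) * ((g : ℂ) - m)) • (X i * Gm E T s f m) := by
  have hH : ∀ m : ℕ, HH E T s i (Gm E T s f m) = ((g : ℂ) - 2 * m) • (X i * Gm E T s f m) := by
    intro m
    induction m with
    | zero =>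
      rw [Gm_zero]
      unfold HH
      rw [Finset.sum_eq_single i, cw_C, cw_C, hf.wt, hf.wt, ← mul_sub, ← C_sub, ← sub_smul,
        hf.gap i hi]
      · rw [Nat.cast_zero, mul_zero, sub_zero, C_csmul, mul_smul_comm]
      · intro j hj hji
        rw [cw_C, hf.eq i hi j hj (fun h => hji h.symm), C_0, mul_zero]
      · intro h
        exact absurd hi h
    | succ m ih =>
      rw [Gm_succ, HH_nab hE hi hs, ih, nab_smul, nab_X_mul]
      have h2 : (2 : MvPolynomial (Fin n) R) * X i * nab E T s (Gm E T s f m) =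
          (2 : ℂ) • (X i * nab E T s (Gm E T s f m)) := by
        rw [mul_assoc, two_mul, two_smul]
      rw [h2, ← sub_smul]
      congr 1
      push_cast
      ring
  have hcomm : ∀ G : MvPolynomial (Fin n) R,
      cw (E i s) (nab E T s G) = nab E T s (cw (E i s) G) + HH E T s i G := by
    intro G
    rw [cw_nab hE]
    congr 1
    unfold HH
    simp only [if_true, mul_sub, Finset.sum_sub_distrib, mul_ite, mul_zero]
    rw [Finset.sum_ite_eq' T i, if_pos hi]
  induction m with
  | zero =>
    rw [Gm_succ, hcomm, Gm_zero, cw_C, hf.up i s his, C_0, nab_zero, zero_add, ← Gm_zero (E := E),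
      hH]
    congr 1
    push_cast
    ring
  | succ m ih =>
    rw [Gm_succ _ _ _ (m + 1), hcomm, ih, nab_smul, nab_X_mul, ← Gm_succ, hH, ← add_smul]
    congr 1
    push_cast
    ring

lemma cw_nab_in (hE : Rel E) {T : Finset (Fin n)} {s i k : Fin n} (hi : i ∈ T) (hk : k ≠ s)
    (G : MvPolynomial (Fin n) R) :
    cw (E i k) (nab E T s G) = nab E T s (cw (E i k) G) - X i * cw (E s k) G := by
  rw [cw_nab hE]
  simp only [if_neg hk, zero_sub, mul_neg, Finset.sum_neg_distrib, mul_ite, mul_zero]
  rw [Finset.sum_ite_eq' T i, if_pos hi, ← sub_eq_add_neg]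

/-- `E_{ik} + X_i ∂_k` kills `∇^m f` for `i ≠ k` in `T`. -/
lemma Eik_Gm (hE : Rel E) {T : Finset (Fin n)} {s i k : Fin n} (hi : i ∈ T) (hk : k ∈ T)
    (hs : s ∉ T) {f : R} (hf : E i k f = 0) (m : ℕ) :
    cw (E i k) (Gm E T s f m) + X i * pderiv k (Gm E T s f m) = 0 := by
  have hks : k ≠ s := fun h => hs (h ▸ hk)
  induction m with
  | zero => rw [Gm_zero, cw_C, hf, C_0, pderiv_C, mul_zero, add_zero]
  | succ m ih =>
    rw [Gm_succ, cw_nab_in hE hi hks, pderiv_nab, if_pos hk]
    have h1 : nab E T s (cw (E i k) (Gm E T s f m)) - X i * cw (E s k) (Gm E T s f m) +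
        X i * (nab E T s (pderiv k (Gm E T s f m)) + cw (E s k) (Gm E T s f m)) =
        nab E T s (cw (E i k) (Gm E T s f m) + X i * pderiv k (Gm E T s f m)) := by
      rw [nab_add, nab_X_mul]
      ring
    rw [h1, ih, nab_zero]

lemma cw_FF (D : Derivation ℂ R R) (T : Finset (Fin n)) (s : Fin n) (g : ℕ) (f : R) :
    cw D (FF E T s g f) = ∑ m ∈ range (g + 1),
      ((-1 : ℂ) ^ m / (m.factorial : ℂ)) • (X s ^ (g - m) * cw D (Gm E T s f m)) := by
  unfold FF
  rw [cw_sum]
  apply Finset.sum_congr rfl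
  intro m _
  rw [cw_smul, cw_X_pow_mul]

omit [Algebra ℂ R] in
lemma pderiv_X_pow_mul_of_ne {k s : Fin n} (hk : k ≠ s) (r : ℕ) (G : MvPolynomial (Fin n) R) :
    pderiv k (X s ^ r * G) = X s ^ r * pderiv k G := by
  induction r with
  | zero => simp
  | succ r ih => rw [pow_succ', mul_assoc, pderiv_X_mul', if_neg hk, zero_add, ih, ← mul_assoc]

omit [Algebra ℂ R] in
lemma pderiv_X_pow_mul_self {s : Fin n} (r : ℕ) {G : MvPolynomial (Fin n) R}
    (hG : pderiv s G = 0) :
    pderiv s (X s ^ r * G) = (r : MvPolynomial (Fin n) R) * (X s ^ (r - 1) * G) := by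
  induction r with
  | zero => simp [hG]
  | succ r ih =>
    rw [pow_succ', mul_assoc, pderiv_X_mul', if_pos rfl, ih]
    rcases Nat.eq_zero_or_pos r with h | h
    · subst h
      simp
    · obtain ⟨q, rfl⟩ : ∃ q, r = q + 1 := ⟨r - 1, by omega⟩
      simp only [Nat.add_sub_cancel]
      push_cast
      ring

lemma pderiv_csmul (k : Fin n) (c : ℂ) (G : MvPolynomial (Fin n) R) :
    pderiv k (c • G) = c • pderiv k G := by
  have h1 : c • G = C (algebraMap ℂ R c) * G := by
    rw [← smul_eq_C_mul, algebraMap_smul]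
  have h2 : c • pderiv k G = C (algebraMap ℂ R c) * pderiv k G := by
    rw [← smul_eq_C_mul, algebraMap_smul]
  rw [h1, h2, pderiv_C_mul]

lemma pderiv_FF_of_ne {T : Finset (Fin n)} {s k : Fin n} (hk : k ≠ s) (g : ℕ) (f : R) :
    pderiv k (FF E T s g f) = ∑ m ∈ range (g + 1),
      ((-1 : ℂ) ^ m / (m.factorial : ℂ)) • (X s ^ (g - m) * pderiv k (Gm E T s f m)) := by
  unfold FF
  rw [map_sum]
  apply Finset.sum_congr rfl
  intro m _
  rw [pderiv_csmul, pderiv_X_pow_mul_of_ne hk]

lemma pderiv_FF_self {T : Finset (Fin n)} {s : Fin n} (hs : s ∉ T) (g : ℕ) (f : R) :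
    pderiv s (FF E T s g f) = ∑ m ∈ range (g + 1),
      ((-1 : ℂ) ^ m / (m.factorial : ℂ)) •
        (((g - m : ℕ) : MvPolynomial (Fin n) R) * (X s ^ (g - m - 1) * Gm E T s f m)) := by
  unfold FF
  rw [map_sum]
  apply Finset.sum_congr rfl
  intro m _
  rw [pderiv_csmul, pderiv_X_pow_mul_self _ (pderiv_Gm hs m)]

/-- The telescoping identity. -/
lemma Eis_FF (hE : Rel E) {T : Finset (Fin n)} {s i : Fin n} (hi : i ∈ T) (hs : s ∉ T)
    {g : ℕ} {th : Fin n → ℂ} {f : R} (hf : Hw E T s g th f) (his : i < s) :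
    cw (E i s) (FF E T s g f) + X i * pderiv s (FF E T s g f) = 0 := by
  rw [cw_FF, pderiv_FF_self hs, Finset.sum_range_succ', Finset.sum_range_succ]
  rw [Gm_zero, cw_C, hf.up i s his, C_0, mul_zero, smul_zero, add_zero, Nat.sub_self,
    Nat.cast_zero, zero_mul, smul_zero, add_zero, Finset.mul_sum, ← Finset.sum_add_distrib]
  apply Finset.sum_eq_zero
  intro m hm
  rw [Finset.mem_range] at hm
  rw [Eis_Gm hE hi hs hf his m, mul_smul_comm, smul_smul]
  have h1 : ((g - m : ℕ) : MvPolynomial (Fin n) R) * (X s ^ (g - m - 1) * Gm E T s f m) =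
      ((g : ℂ) - m) • (X s ^ (g - m - 1) * Gm E T s f m) := by
    have h2 : ((g : ℂ) - m) = ((g - m : ℕ) : ℂ) := by
      rw [Nat.cast_sub hm.le]
    rw [h2, Nat.cast_smul_eq_nsmul, nsmul_eq_mul]
  rw [h1, smul_smul, mul_smul_comm]
  have h3 : g - (m + 1) = g - m - 1 := by omega
  have h4 : X s ^ (g - (m + 1)) * (X i * Gm E T s f m) =
      X i * (X s ^ (g - m - 1) * Gm E T s f m) := by
    rw [h3]
    ring
  rw [h4, ← add_smul]
  have h5 : (-1 : ℂ) ^ (m + 1) / ((m + 1).factorial : ℂ) * (((m : ℂ) + 1) * ((g : ℂ) - m)) +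
      (-1 : ℂ) ^ m / (m.factorial : ℂ) * ((g : ℂ) - m) = 0 := by
    have h6 : ((m.factorial : ℕ) : ℂ) ≠ 0 := by
      exact_mod_cast Nat.factorial_ne_zero m
    have h7 : ((m : ℂ) + 1) ≠ 0 := by
      exact_mod_cast Nat.succ_ne_zero m
    rw [Nat.factorial_succ]
    push_cast
    field_simp
    ring
  rw [h5, zero_smul]

section Main

variable {i0 s : Fin n} {g : ℕ} {th nu : Fin n → ℂ} {f : R} {p : Fin n → R}

lemma s_notMem : s ∉ Ico i0 s := by simp

lemma pderiv_FF_out {k : Fin n} (hk : k ∉ insert s (Ico i0 s)) :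
    pderiv k (FF E (Ico i0 s) s g f) = 0 := by
  rw [Finset.mem_insert, not_or] at hk
  rw [pderiv_FF_of_ne hk.1]
  apply Finset.sum_eq_zero
  intro m _
  rw [pderiv_Gm hk.2, mul_zero, smul_zero]

lemma E_Ts (hp : Tup E (insert s (Ico i0 s)) nu p) {i k : Fin n} (hik : i < k) :
    E i k (Ts E (Ico i0 s) s g f p) = eval p (cw (E i k) (FF E (Ico i0 s) s g f) +
      X i * pderiv k (FF E (Ico i0 s) s g f)) := by
  unfold Ts
  rw [deriv_eval, map_add]
  congr 1
  have h1 : ∀ j, eval p (pderiv j (FF E (Ico i0 s) s g f)) * E i k (p j) =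
      if k = j then eval p (pderiv j (FF E (Ico i0 s) s g f)) * p i else 0 := by
    intro j
    by_cases hj : j ∈ insert s (Ico i0 s)
    · rw [hp.up i k hik j hj]
      split_ifs
      · rfl
      · rw [mul_zero]
    · rw [pderiv_FF_out hj, map_zero, zero_mul, zero_mul]
      split_ifs <;> rfl
  rw [Finset.sum_congr rfl (fun j _ => h1 j), Finset.sum_ite_eq, if_pos (mem_univ _), map_mul,
    eval_X, mul_comm]

/-- **`T_s` is a highest weight vector.** -/
theorem Ts_up (hE : Rel E) (hf : Hw E (Ico i0 s) s g th f)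
    (hp : Tup E (insert s (Ico i0 s)) nu p) {i k : Fin n} (hik : i < k) :
    E i k (Ts E (Ico i0 s) s g f p) = 0 := by
  rw [E_Ts hp hik]
  by_cases hi : i ∈ Ico i0 s
  · by_cases hks : k = s
    · subst hks
      rw [Eis_FF hE hi s_notMem hf hik, map_zero]
    · by_cases hk : k ∈ Ico i0 s
      · rw [cw_FF, pderiv_FF_of_ne hks, Finset.mul_sum, ← Finset.sum_add_distrib,
          Finset.sum_eq_zero, map_zero]
        intro m _
        rw [mul_smul_comm, ← smul_add]
        have h1 : X s ^ (g - m) * cw (E i k) (Gm E (Ico i0 s) s f m) +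
            X i * (X s ^ (g - m) * pderiv k (Gm E (Ico i0 s) s f m)) =
            X s ^ (g - m) * (cw (E i k) (Gm E (Ico i0 s) s f m) +
              X i * pderiv k (Gm E (Ico i0 s) s f m)) := by ring
        rw [h1, Eik_Gm hE hi hk s_notMem (hf.up i k hik), mul_zero, smul_zero]
      · have hk2 : k ∉ insert s (Ico i0 s) := by
          rw [Finset.mem_insert, not_or]
          exact ⟨hks, hk⟩
        have hsk : s < k := by
          rw [Finset.mem_Ico, not_and, not_lt] at hk
          rw [Finset.mem_Ico] at hi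
          exact lt_of_le_of_ne (hk (hi.1.trans hik.le)) (Ne.symm hks)
        rw [pderiv_FF_out hk2, mul_zero, add_zero, cw_FF, Finset.sum_eq_zero, map_zero]
        intro m _
        have h2 : ∀ m, cw (E s k) (Gm E (Ico i0 s) s f m) = 0 :=
          kill_Gm _ (cw_nab_of_ne hE hks s_notMem) (hf.up s k hsk)
        have h3 : cw (E i k) (Gm E (Ico i0 s) s f m) = 0 := by
          induction m with
          | zero => rw [Gm_zero, cw_C, hf.up i k hik, C_0]
          | succ m ih => 
            rw [Gm_succ, cw_nab_in hE hi hks, ih (by simp_all; omega), h2, mul_zero, nab_zero, sub_zero]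
        rw [h3, mul_zero, smul_zero]
  · have h4 : cw (E i k) (FF E (Ico i0 s) s g f) = 0 := by
      rw [cw_FF, Finset.sum_eq_zero]
      intro m _
      have h5 : ∀ m, cw (E i k) (Gm E (Ico i0 s) s f m) = 0 := by
        by_cases hks : k = s
        · subst hks
          have h6 : ∀ j ∈ Ico i0 k, ∀ m, cw (E i j) (Gm E (Ico i0 k) k f m) = 0 := by
            intro j hj
            have hji : i < j := by
              rw [Finset.mem_Ico, not_and, not_lt] at hi
              rw [Finset.mem_Ico] at hj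
              by_contra h
              push Not at h
              have := hi (hj.1.trans h)
              exact absurd hik (not_lt.2 this)
            have hjk : j ≠ k := by
              rw [Finset.mem_Ico] at hj
              exact hj.2.ne
            exact kill_Gm _ (cw_nab_of_ne hE hjk hi) (hf.up i j hji)
          intro m
          induction m with
          | zero => rw [Gm_zero, cw_C, hf.up i k hik, C_0]
          | succ m ih =>
            rw [Gm_succ, cw_nab hE, ih, nab_zero, zero_add]
            apply Finset.sum_eq_zero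
            intro j hj
            have hji : j ≠ i := fun h => hi (h ▸ hj)
            rw [if_pos rfl, if_neg hji, sub_zero, h6 j hj, mul_zero]
        · exact kill_Gm _ (cw_nab_of_ne hE hks hi) (hf.up i k hik)
      rw [h5, mul_zero, smul_zero]
    rw [h4, zero_add, map_mul, eval_X]
    by_cases his : i = s
    · have hk2 : k ∉ insert s (Ico i0 s) := by
        rw [Finset.mem_insert, not_or, Finset.mem_Ico, not_and, not_lt]
        exact ⟨fun h => by rw [his, h] at hik; exact lt_irrefl _ hik, fun _ => by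
          rw [← his]; exact hik.le⟩
      rw [pderiv_FF_out hk2, map_zero, mul_zero]
    · rw [hp.out i (by rw [Finset.mem_insert, not_or]; exact ⟨his, hi⟩), zero_mul]

end Main

end Vale.Agent.P181.H412.Ts
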